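import Vale.Agent.P022.H132.L3.Asm

/-! # P022-L3: the class occurs at level 3 (`Occurs E 3 r`, the input of the twist) -/

open NumberField Matrix

noncomputable section

namespace Vale.Agent.P022

open Vale.Agent.P022.H132.Z

/-- `fin3` with the level -/
theorem H20.fin3Occ (E : Type) [NontriviallyNormedField E] [NormedAlgebra ℚ_[2] E]
    [FiniteDimensional ℚ_[2] E] (r : GQ →* GL (Fin 2) E) (h3 : C3 r)
    (key : ∀ φ : PA 3 → GQ, (∀ ℓ, IsFrob ℓ.1 (φ ℓ)) → ∀ ε : ℝ, 0 < ε → ∃ k : ℕ,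
      ∀ x : FreeAlgebra ℤ (Gen 3), (∀ i < k, FreeAlgebra.lift ℤ (fun s => gHk 3 s i) x = 0) →
        ‖FreeAlgebra.lift ℤ (Sum.elim
          (fun ℓ => (r (φ ℓ) : Matrix (Fin 2) (Fin 2) E).trace)
          (fun ℓ => (r (φ ℓ) : Matrix (Fin 2) (Fin 2) E).det)) x‖ < ε) : Occurs E 3 r := by
  obtain ⟨hun, hres, -, -⟩ := h3
  have hcE : CompleteSpace E := FiniteDimensional.complete ℚ_[2] E
  have huE : IsUltrametricDist E := IsUltrametricDist.of_normedAlgebra ℚ_[2]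
  have hu : ∀ ℓ : PA 3, UnrAt r ℓ.1 := by
    intro ℓ
    apply hun ℓ.1 ℓ.2.1
    · intro h
      exact ℓ.2.2 (by rw [h]; norm_num)
    · intro h
      exact ℓ.2.2 (by rw [h]; norm_num)
  choose φ hφ using fun ℓ : PA 3 => H20.exists_isFrob ℓ.2.1
  let L : FreeAlgebra ℤ (Gen 3) →ₐ[ℤ] E := FreeAlgebra.lift ℤ (Sum.elim
    (fun ℓ => (r (φ ℓ) : Matrix (Fin 2) (Fin 2) E).trace)
    (fun ℓ => (r (φ ℓ) : Matrix (Fin 2) (Fin 2) E).det))
  have hdet : ∀ g : GQ, ‖(r g : Matrix (Fin 2) (Fin 2) E).det‖ ≤ 1 := by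
    intro g
    have h1 : (r g : Matrix (Fin 2) (Fin 2) E).det =
      ((r g : Matrix (Fin 2) (Fin 2) E).det - 1) + 1 := by ring
    rw [h1]
    exact (IsUltrametricDist.norm_add_le_max _ _).trans
      (max_le (hres g).2.le (by rw [norm_one]))
  have hL : ∀ x, ‖L x‖ ≤ 1 := by
    intro x
    induction x using FreeAlgebra.induction with
    | grade0 n =>
      rw [AlgHom.commutes]
      rw [eq_intCast]
      have h1 : ((n : ℤ) : E) = algebraMap ℚ_[2] E (n : ℚ_[2]) := by simp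
      rw [h1, norm_algebraMap']
      exact Padic.norm_int_le_one n
    | grade1 s =>
      change ‖FreeAlgebra.lift ℤ _ (FreeAlgebra.ι ℤ s)‖ ≤ 1
      rw [FreeAlgebra.lift_ι_apply]
      rcases s with ℓ | ℓ
      · exact (hres (φ ℓ)).1.le
      · exact hdet (φ ℓ)
    | mul a b ha hb =>
      rw [map_mul, norm_mul]
      exact mul_le_one₀ ha (norm_nonneg _) hb
    | add a b ha hb =>
      rw [map_add]
      exact (IsUltrametricDist.norm_add_le_max _ _).trans (max_le ha hb)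
  obtain ⟨c, hc⟩ := H587.LIM (Gen 3) (fun i => Module.End ℂ (MF 3 (i + 1))) (gHk 3) E L hL
    (fun ε hε => key φ hφ ε hε)
  refine ⟨hu, c, ?_⟩
  intro ℓ g hg
  obtain ⟨h1, h2⟩ := H20.frob_trace r ℓ.2.1 (hu ℓ) (hφ ℓ) hg
  have h3 : c.val (Sum.inl ℓ) = (r (φ ℓ) : Matrix (Fin 2) (Fin 2) E).trace :=
    (hc (Sum.inl ℓ)).trans (FreeAlgebra.lift_ι_apply _ _)
  have h4 : c.val (Sum.inr ℓ) = (r (φ ℓ) : Matrix (Fin 2) (Fin 2) E).det :=
    (hc (Sum.inr ℓ)).trans (FreeAlgebra.lift_ι_apply _ _)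
  exact ⟨h3.trans h1.symm, h4.trans h2.symm⟩

/-- the estimate for every `r` of the class -/
theorem H20.key3 (ring : RingMain) (W : ∀ i : ℕ, Even i → WD i)
    (faith : ∀ c τ σ : GQ, Gens c τ σ → Faith W c τ σ)
    (E : Type) [NontriviallyNormedField E] [NormedAlgebra ℚ_[2] E] [FiniteDimensional ℚ_[2] E]
    (r : GQ →* GL (Fin 2) E) (hc : Continuous r) (ho : OddRep r) (h3 : C3 r)
    (φ : PA 3 → GQ) (hφ : ∀ ℓ, IsFrob ℓ.1 (φ ℓ)) (ε : ℝ) (hε : 0 < ε) : ∃ k : ℕ,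
      ∀ x : FreeAlgebra ℤ (Gen 3), (∀ i < k, FreeAlgebra.lift ℤ (fun s => gHk 3 s i) x = 0) →
        ‖FreeAlgebra.lift ℤ (Sum.elim
          (fun ℓ => (r (φ ℓ) : Matrix (Fin 2) (Fin 2) E).trace)
          (fun ℓ => (r (φ ℓ) : Matrix (Fin 2) (Fin 2) E).det)) x‖ < ε := by
  have hu : IsUltrametricDist E := IsUltrametricDist.of_normedAlgebra ℚ_[2]
  obtain ⟨c, τ, σ, H, P, hP, hP3, hτ, hσ, hgen⟩ := exists_gens
  have h2 : ∀ g : GQ, (∀ x : 𝓞 Qb, g • x - x ∈ P) → r g ^ 2 = 1 := by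
    intro g hg
    rcases h3.2.2.1 P hP hP3 g hg with h | h
    · rw [h, one_pow]
    · rw [sq, h.1]
  have h1 : ∃ g : GQ, (∀ x : 𝓞 Qb, g • x - x ∈ P) ∧ r g ≠ 1 ∧ r g ≠ -1 := by
    obtain ⟨g, hg, hne⟩ := ram_all r Nat.prime_three h3.2.2.2 hP hP3
    refine ⟨g, hg, hne, fun h => ?_⟩
    rcases h3.2.2.1 P hP hP3 g hg with h4 | h4
    · exact hne h4
    · have h5 := h4.2
      rw [h, Units.val_neg, Units.val_one, Matrix.det_neg, Matrix.det_one] at h5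
      have h6 : (2 : E) * 1 = 0 := by
        simp only [Fintype.card_fin] at h5
        linear_combination h5
      exact one_ne_zero (tfE 1 h6)
  obtain ⟨-, ht, hd, -, -⟩ := H443.type_r r hc (fun g => (h3.2.1 g).1) (fun g => (h3.2.1 g).2)
    Nat.prime_three (by norm_num) hP hP3 hσ hτ hgen h2 h1
  have hr : Rep r c τ := ⟨h3.2.1, H23.L3.rgood r hc h3.1 h3.2.1, ho c H.conj, ht, hd⟩
  exact key ring W H (faith c τ σ H) E r hr φ hφ ε hε

/-- **P022-L3 with the level**: the class occurs at level 3 -/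
theorem H20.occ3L (ring : RingMain) (W : ∀ i : ℕ, Even i → WD i)
    (faith : ∀ c τ σ : GQ, Gens c τ σ → Faith W c τ σ)
    (E : Type) [NontriviallyNormedField E] [NormedAlgebra ℚ_[2] E] [FiniteDimensional ℚ_[2] E]
    (r : GQ →* GL (Fin 2) E) (hc : Continuous r) (ho : OddRep r) (h3 : C3 r) : Occurs E 3 r :=
  H20.fin3Occ E r h3 (H20.key3 ring W faith E r hc ho h3)

end Vale.Agent.P022
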